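import Vale.Agent.Lib.P335.Defs
import Vale.Agent.Lib.P335.Assembly
import Vale.Agent.Lib.P335.Final

/-!
The Kannan-Tetali-Vempala conjecture for simple undirected graphs, in the form: after `C n ^ k`
or more steps of the switch chain the probability of every event is within `1/4` of its uniform
probability, for every graphical degree vector and every starting graph.
-/

namespace Vale.Agent.Results.P335.EventualMixing

open Vale.Agent.P335 Finset

open Classical in
/-- There are natural numbers `C`, `k` such that for all `n ≥ 4`, every vector `d`, every simple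
graph `G` on `Fin n` with degree vector `d`, all `t ≥ C n ^ k` and every set `A` of simple graphs
with degree vector `d`: the probability that the switch chain started at `G` is in `A` after `t`
steps differs from `|A| / |Ω_d|` by at most `1/4`. -/
theorem result : ∃ C k : ℕ, ∀ n : ℕ, 4 ≤ n → ∀ d : Fin n → ℕ, ∀ G : Realization n d,
    ∀ t : ℕ, C * n ^ k ≤ t → ∀ A : Finset (Realization n d),
      |∑ H ∈ A, (switchChain n d ^ t) G H -
        (A.card : ℝ) / (Fintype.card (Realization n d) : ℝ)| ≤ 1 / 4 := by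
  obtain ⟨C, k, hP⟩ := poincare
  refine ⟨(12 * C + 1) * 3, k + 6, fun n hn d G₀ t ht A => ?_⟩
  have hne : Nonempty (Realization n d) := ⟨G₀⟩
  have hn1 : (1 : ℝ) ≤ n := by exact_mod_cast (by omega : 1 ≤ n)
  set R : ℝ := (C : ℝ) * (n : ℝ) ^ k * (12 * (n.choose 4 : ℝ)) + 1 with hR
  have hR1 : 1 ≤ R := by
    have : 0 ≤ (C : ℝ) * (n : ℝ) ^ k * (12 * (n.choose 4 : ℝ)) := by positivity
    linarith
  have hcard : 0 < (Fintype.card (Realization n d) : ℝ) := by exact_mod_cast Fintype.card_pos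
  have hpoinc : ∀ f : Realization n d → ℝ, ∑ x, ∑ y, (f x - f y) ^ 2 ≤
      R * (Fintype.card (Realization n d)) * ∑ x, ∑ y, switchChain n d x y * (f x - f y) ^ 2 := by
    intro f
    have hinj : Function.Injective (fun G : Realization n d => es G.1) :=
      fun G G' h => Subtype.ext (es_injective h)
    set g : Finset (Sym2 (Fin n)) → ℝ :=
      Function.extend (fun G : Realization n d => es G.1) f 0 with hg
    have hgf : ∀ G : Realization n d, g (es G.1) = f G := fun G => hinj.extend_apply f 0 G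
    have h1 := hP (Fin n) d g
    rw [sum_Om_eq, card_Om_eq, Fintype.card_fin] at h1
    have h2 : ∑ G : Realization n d, ∑ B ∈ Om d, (g (es G.1) - g B) ^ 2 =
        ∑ x : Realization n d, ∑ y : Realization n d, (f x - f y) ^ 2 := by
      refine Finset.sum_congr rfl fun x _ => ?_
      rw [sum_Om_eq]
      refine Finset.sum_congr rfl fun y _ => ?_
      rw [hgf, hgf]
    rw [h2] at h1
    have h3 := switchEnergy_le hn g f hgf
    have h4 : 0 ≤ ∑ G, ∑ G', switchChain n d G G' * (f G - f G') ^ 2 :=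
      Finset.sum_nonneg fun G _ => Finset.sum_nonneg fun G' _ =>
        mul_nonneg (chain_nonneg n d G G') (sq_nonneg _)
    calc ∑ x, ∑ y, (f x - f y) ^ 2
        ≤ (C : ℝ) * (n : ℝ) ^ k * (Fintype.card (Realization n d) : ℝ) * SwitchEnergy d g := h1
      _ ≤ (C : ℝ) * (n : ℝ) ^ k * (Fintype.card (Realization n d) : ℝ) *
          (12 * (n.choose 4 : ℝ) *
            ∑ G, ∑ G', switchChain n d G G' * (f G - f G') ^ 2) :=
        mul_le_mul_of_nonneg_left h3 (by positivity)
      _ = (R - 1) * (Fintype.card (Realization n d)) *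
          ∑ x, ∑ y, switchChain n d x y * (f x - f y) ^ 2 := by rw [hR]; ring
      _ ≤ R * (Fintype.card (Realization n d)) *
          ∑ x, ∑ y, switchChain n d x y * (f x - f y) ^ 2 := by
        refine mul_le_mul_of_nonneg_right ?_ h4
        refine mul_le_mul_of_nonneg_right (by linarith) hcard.le
  set L : ℝ := Real.log (4 * (Fintype.card (Realization n d) : ℝ)) with hL
  have hcard1 : 1 ≤ (Fintype.card (Realization n d) : ℝ) := by
    exact_mod_cast Fintype.card_pos
  have hL0 : 0 ≤ L := Real.log_nonneg (by linarith)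
  have h3 : L ≤ (n : ℝ) ^ 2 + 2 := log_card_le (by omega) hne
  have h4 : (n.choose 4 : ℝ) ≤ (n : ℝ) ^ 4 := by exact_mod_cast Nat.choose_le_pow n 4
  have hn2 : (1 : ℝ) ≤ (n : ℝ) ^ 2 := one_le_pow₀ hn1
  have hnk : (1 : ℝ) ≤ (n : ℝ) ^ (k + 4) := one_le_pow₀ hn1
  have h5 : R ≤ (12 * (C : ℝ) + 1) * (n : ℝ) ^ (k + 4) := by
    rw [hR]
    have : (C : ℝ) * (n : ℝ) ^ k * (12 * (n.choose 4 : ℝ)) ≤
        (C : ℝ) * (n : ℝ) ^ k * (12 * (n : ℝ) ^ 4) :=
      mul_le_mul_of_nonneg_left (by linarith) (by positivity)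
    have h6 : (C : ℝ) * (n : ℝ) ^ k * (12 * (n : ℝ) ^ 4) = 12 * (C : ℝ) * (n : ℝ) ^ (k + 4) := by
      rw [pow_add]; ring
    linarith
  have h6 : R * L ≤ (12 * (C : ℝ) + 1) * (n : ℝ) ^ (k + 4) * (3 * (n : ℝ) ^ 2) :=
    mul_le_mul h5 (by linarith) hL0 (by positivity)
  have h7 : (12 * (C : ℝ) + 1) * (n : ℝ) ^ (k + 4) * (3 * (n : ℝ) ^ 2) =
      (((12 * C + 1) * 3 * n ^ (k + 6) : ℕ) : ℝ) := by
    push_cast
    rw [show k + 6 = (k + 4) + 2 from rfl, pow_add _ (k + 4) 2]
    ring
  have h8 : R * L ≤ t := by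
    rw [h7] at h6
    exact h6.trans (by exact_mod_cast ht)
  have hmix := mixing (switchChain n d) (chain_symm n d) (chain_nonneg n d)
    (fun G => chain_row n hn d G) (chain_lazy n d) R hR1 hpoinc t h8 G₀
  have hrow : ∀ s : ℕ, ∑ H, (switchChain n d ^ s) G₀ H = 1 := by
    intro s
    induction s with
    | zero => simp [Matrix.one_apply]
    | succ s ih =>
      rw [pow_succ]
      simp only [Matrix.mul_apply]
      rw [Finset.sum_comm]
      simp only [← Finset.mul_sum, chain_row n hn d, mul_one]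
      exact ih
  set a : Realization n d → ℝ := fun H => (switchChain n d ^ t) G₀ H -
    1 / (Fintype.card (Realization n d) : ℝ) with ha
  have hsum : ∑ H, a H = 0 := by
    rw [ha, Finset.sum_sub_distrib, hrow t, Finset.sum_const, Finset.card_univ, nsmul_eq_mul,
      mul_one_div_cancel hcard.ne', sub_self]
  have hA : ∑ H ∈ A, (switchChain n d ^ t) G₀ H -
      (A.card : ℝ) / (Fintype.card (Realization n d) : ℝ) = ∑ H ∈ A, a H := by
    rw [ha, Finset.sum_sub_distrib, Finset.sum_const, nsmul_eq_mul, mul_one_div]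
  rw [hA]
  have hc : ∑ H ∈ A, a H + ∑ H ∈ Aᶜ, a H = 0 := by
    rw [Finset.sum_add_sum_compl, hsum]
  have hb : ∑ H ∈ A, |a H| + ∑ H ∈ Aᶜ, |a H| = ∑ H, |a H| := Finset.sum_add_sum_compl A _
  have h9 : |∑ H ∈ A, a H| ≤ ∑ H ∈ A, |a H| := Finset.abs_sum_le_sum_abs _ _
  have h10 : |∑ H ∈ Aᶜ, a H| ≤ ∑ H ∈ Aᶜ, |a H| := Finset.abs_sum_le_sum_abs _ _
  have h11 : |∑ H ∈ Aᶜ, a H| = |∑ H ∈ A, a H| := by
    rw [show ∑ H ∈ Aᶜ, a H = -∑ H ∈ A, a H by linarith, abs_neg]
  have h12 : (1 / 2) * ∑ H, |a H| ≤ 1 / 4 := by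
    convert hmix using 8
  linarith

end Vale.Agent.Results.P335.EventualMixing
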