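import Vale.Agent.Lib.P335.Defs
import Vale.Agent.Lib.P335.Assembly
import Vale.Agent.Lib.P335.Final

/-!
The Kannan-Tetali-Vempala conjecture for simple undirected graphs: the switch chain on the set of
all simple graphs with a given graphical degree vector mixes in polynomial time.
-/

namespace Vale.Agent.Results.P335.KTV

open Vale.Agent.P335

/-- There is a polynomial `p` such that for all `n ≥ 4` and all graphical `d` the mixing time of
the switch chain on `Ω_d` (the least `t` with total variation distance at most `1/4` from every
start, which exists) is at most `p n`. -/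
theorem result : ∃ p : Polynomial ℝ, ∀ n : ℕ, 4 ≤ n → ∀ d : Fin n → ℕ,
    Nonempty (Realization n d) →
      (∃ t : ℕ, ∀ G : Realization n d, tvDist n d t G ≤ 1 / 4) ∧
        (tmix n d : ℝ) ≤ p.eval (n : ℝ) :=
  final poincare

end Vale.Agent.Results.P335.KTV
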