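import Vale.Agent.Lib.P335.Defs
import Vale.Agent.Lib.P335.WalkDraws

/-!
The Kannan-Tetali-Vempala conjecture for simple undirected graphs, for the switch chain written as
a random walk driven by independent uniform draws of a coin and of four distinct vertices.
-/

namespace Vale.Agent.Results.P335.RandomDraws

open Vale.Agent.P335 Finset

open Classical in
/-- The set `Ω_d` of all simple graphs on `Fin n` in which every vertex `v` has degree `d v`. -/
noncomputable def graphsWith (n : ℕ) (d : Fin n → ℕ) : Finset (SimpleGraph (Fin n)) :=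
  univ.filter (fun G => ∀ v, G.degree v = d v)

/-- The random choices of one step: a coin and an ordered 4-tuple of distinct vertices. -/
abbrev Draw (n : ℕ) : Type := Bool × (Fin 4 ↪ Fin n)

open Classical in
/-- The switch of `G` at `(a, b, c, e) = (q 0, q 1, q 2, q 3)`: if `ab` and `ce` are edges and
`ac` and `be` are not, then the edges `ab`, `ce` are replaced by `ac`, `be`; otherwise `G` is
kept. -/
noncomputable def switchAt {n : ℕ} (G : SimpleGraph (Fin n)) (q : Fin 4 ↪ Fin n) :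
    SimpleGraph (Fin n) :=
  if G.Adj (q 0) (q 1) ∧ G.Adj (q 2) (q 3) ∧ ¬ G.Adj (q 0) (q 2) ∧ ¬ G.Adj (q 1) (q 3) then
    G.deleteEdges {s(q 0, q 1), s(q 2, q 3)} ⊔
      SimpleGraph.fromEdgeSet {s(q 0, q 2), s(q 1, q 3)}
  else G

/-- One step of the lazy switch chain: stay put if the coin shows `true`, otherwise perform the
switch at the drawn vertices. -/
noncomputable def stepWith {n : ℕ} (G : SimpleGraph (Fin n)) (ω : Draw n) : SimpleGraph (Fin n) :=
  if ω.1 then G else switchAt G ω.2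

/-- The graph reached from `G` by the `t` successive draws `ω 0, ω 1, …, ω (t - 1)`. -/
noncomputable def run {n t : ℕ} (G : SimpleGraph (Fin n)) (ω : Fin t → Draw n) :
    SimpleGraph (Fin n) :=
  (List.ofFn ω).foldl stepWith G

open Classical in
/-- The probability that `t` independent uniform draws lead from `G` to `H`. -/
noncomputable def prob {n : ℕ} (t : ℕ) (G H : SimpleGraph (Fin n)) : ℝ :=
  ((univ.filter (fun ω : Fin t → Draw n => run G ω = H)).card : ℝ) /
    (Fintype.card (Fin t → Draw n) : ℝ)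

/-! ### Proof -/

theorem switchAt_eq {n : ℕ} (G : SimpleGraph (Fin n)) (q : Fin 4 ↪ Fin n) :
    switchAt G q = switchStep G {s(q 0, q 1), s(q 2, q 3)} {s(q 0, q 2), s(q 1, q 3)} := by
  classical
  by_cases h : G.Adj (q 0) (q 1) ∧ G.Adj (q 2) (q 3) ∧ ¬ G.Adj (q 0) (q 2) ∧ ¬ G.Adj (q 1) (q 3)
  · have h' : (∀ e ∈ ({s(q 0, q 1), s(q 2, q 3)} : Finset (Sym2 (Fin n))), e ∈ G.edgeSet) ∧
        (∀ e ∈ ({s(q 0, q 2), s(q 1, q 3)} : Finset (Sym2 (Fin n))), e ∉ G.edgeSet) := by
      constructor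
      · intro e he
        rw [mem_insert, mem_singleton] at he
        rcases he with rfl | rfl
        · exact h.1
        · exact h.2.1
      · intro e he
        rw [mem_insert, mem_singleton] at he
        rcases he with rfl | rfl
        · exact h.2.2.1
        · exact h.2.2.2
    rw [switchStep_of h']
    unfold switchAt
    rw [if_pos h]
    ext u v
    rw [SimpleGraph.sup_adj, SimpleGraph.deleteEdges_adj, SimpleGraph.fromEdgeSet_adj,
      SimpleGraph.fromEdgeSet_adj]
    simp only [Finset.coe_insert, Finset.coe_singleton, Set.mem_union, Set.mem_sdiff,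
      SimpleGraph.mem_edgeSet]
    constructor
    · rintro (⟨h1, h2⟩ | ⟨h1, h2⟩)
      · exact ⟨Or.inl ⟨h1, h2⟩, h1.ne⟩
      · exact ⟨Or.inr h1, h2⟩
    · rintro ⟨⟨h1, h2⟩ | h1, h3⟩
      · exact Or.inl ⟨h1, h2⟩
      · exact Or.inr ⟨h1, h3⟩
  · have h' : ¬ ((∀ e ∈ ({s(q 0, q 1), s(q 2, q 3)} : Finset (Sym2 (Fin n))), e ∈ G.edgeSet) ∧
        (∀ e ∈ ({s(q 0, q 2), s(q 1, q 3)} : Finset (Sym2 (Fin n))), e ∉ G.edgeSet)) := by
      rintro ⟨h1, h2⟩
      exact h ⟨h1 s(q 0, q 1) (by simp), h1 s(q 2, q 3) (by simp), h2 s(q 0, q 2) (by simp),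
        h2 s(q 1, q 3) (by simp)⟩
    rw [switchStep_of_not h']
    unfold switchAt
    rw [if_neg h]

theorem q_ne {n : ℕ} (q : Fin 4 ↪ Fin n) : q 0 ≠ q 1 ∧ q 0 ≠ q 2 ∧ q 0 ≠ q 3 ∧ q 1 ≠ q 2 ∧
    q 1 ≠ q 3 ∧ q 2 ≠ q 3 := by
  refine ⟨?_, ?_, ?_, ?_, ?_, ?_⟩ <;> exact fun h => absurd (q.injective h) (by decide)

theorem mem_pm {n : ℕ} (q : Fin 4 ↪ Fin n) :
    ({s(q 0, q 1), s(q 2, q 3)} : Finset (Sym2 (Fin n))) ∈
      perfectMatchings {q 0, q 1, q 2, q 3} := by
  obtain ⟨h1, h2, h3, h4, h5, h6⟩ := q_ne q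
  exact pair_mem_perfectMatchings h1 h2 h3 h4 h5 h6

theorem mem_pm' {n : ℕ} (q : Fin 4 ↪ Fin n) :
    ({s(q 0, q 2), s(q 1, q 3)} : Finset (Sym2 (Fin n))) ∈
      perfectMatchings {q 0, q 1, q 2, q 3} := by
  obtain ⟨h1, h2, h3, h4, h5, h6⟩ := q_ne q
  have h7 := pair_mem_perfectMatchings h2 h1 h3 h4.symm h6 h5
  have h8 : ({q 0, q 2, q 1, q 3} : Finset (Fin n)) = {q 0, q 1, q 2, q 3} := by
    ext x; simp only [mem_insert, mem_singleton]; tauto
  rwa [h8] at h7

open Classical in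
theorem degree_stepWith {n : ℕ} (G : SimpleGraph (Fin n)) (ω : Draw n) (v : Fin n) :
    (stepWith G ω).degree v = G.degree v := by
  by_cases hb : ω.1 = true
  · have h : stepWith G ω = G := by
      unfold stepWith
      rw [if_pos hb]
    rw [h]
  · have h : stepWith G ω = switchStep G {s(ω.2 0, ω.2 1), s(ω.2 2, ω.2 3)}
        {s(ω.2 0, ω.2 2), s(ω.2 1, ω.2 3)} := by
      unfold stepWith
      rw [if_neg hb, switchAt_eq]
    rw [h]
    exact degree_switchStep G (mem_pm ω.2) (mem_pm' ω.2) v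

/-- the steps on the realizations of `d` -/
noncomputable def stepR {n : ℕ} {d : Fin n → ℕ} (G : Realization n d) (ω : Draw n) :
    Realization n d :=
  ⟨stepWith G.1 ω, fun v => by rw [← G.2 v]; exact degree_stepWith G.1 ω v⟩

theorem foldl_stepR {n : ℕ} {d : Fin n → ℕ} (l : List (Draw n)) (G : Realization n d) :
    (l.foldl stepR G).1 = l.foldl stepWith G.1 := by
  induction l generalizing G with
  | nil => rfl
  | cons c l ih => exact ih (stepR G c)

/-- exchange the middle two vertices of a draw -/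
def flip {n : ℕ} (ω : Draw n) : Draw n := (ω.1, (Equiv.swap (1 : Fin 4) 2).toEmbedding.trans ω.2)

theorem flip_flip {n : ℕ} (ω : Draw n) : flip (flip ω) = ω := by
  refine Prod.ext rfl (DFunLike.ext _ _ fun i => ?_)
  simp [flip]

theorem flip_snd {n : ℕ} (ω : Draw n) : (flip ω).2 0 = ω.2 0 ∧ (flip ω).2 1 = ω.2 2 ∧
    (flip ω).2 2 = ω.2 1 ∧ (flip ω).2 3 = ω.2 3 := by
  have h0 : Equiv.swap (1 : Fin 4) 2 0 = 0 := by decide
  have h1 : Equiv.swap (1 : Fin 4) 2 1 = 2 := by decide
  have h2 : Equiv.swap (1 : Fin 4) 2 2 = 1 := by decide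
  have h3 : Equiv.swap (1 : Fin 4) 2 3 = 3 := by decide
  refine ⟨?_, ?_, ?_, ?_⟩
  · exact congrArg ω.2 h0
  · exact congrArg ω.2 h1
  · exact congrArg ω.2 h2
  · exact congrArg ω.2 h3

theorem stepWith_flip {n : ℕ} {G G' : SimpleGraph (Fin n)} (hne : G ≠ G') (ω : Draw n)
    (h : stepWith G ω = G') : stepWith G' (flip ω) = G := by
  unfold stepWith at h ⊢
  have h0 : (flip ω).1 = ω.1 := rfl
  rw [h0]
  by_cases hb : ω.1 = true
  · rw [if_pos hb] at h
    exact absurd h hne
  · rw [if_neg hb] at h ⊢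
    rw [switchAt_eq] at h ⊢
    obtain ⟨h1, h2, h3, h4⟩ := flip_snd ω
    rw [h1, h2, h3, h4]
    exact switchStep_symm (mem_pm ω.2) (mem_pm' ω.2) hne h

open Classical in
theorem walk_symm {n : ℕ} {d : Fin n → ℕ} (G G' : Realization n d) :
    walkMatrix stepR G G' = walkMatrix stepR G' G := by
  by_cases hG : G = G'
  · rw [hG]
  have hne : G.1 ≠ G'.1 := fun h => hG (Subtype.ext h)
  unfold walkMatrix
  congr 2
  refine Finset.card_bij' (fun ω _ => flip ω) (fun ω _ => flip ω) ?_ ?_ ?_ ?_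
  · intro ω hω
    rw [mem_filter] at hω ⊢
    refine ⟨mem_univ _, Subtype.ext ?_⟩
    exact stepWith_flip hne ω (congrArg Subtype.val hω.2)
  · intro ω hω
    rw [mem_filter] at hω ⊢
    refine ⟨mem_univ _, Subtype.ext ?_⟩
    exact stepWith_flip hne.symm ω (congrArg Subtype.val hω.2)
  · intro ω _
    exact flip_flip ω
  · intro ω _
    exact flip_flip ω

open Classical in
theorem walk_lazy {n : ℕ} (hn : 4 ≤ n) {d : Fin n → ℕ} (G : Realization n d) :
    1 / 2 ≤ walkMatrix stepR G G := by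
  have hne : Nonempty (Fin 4 ↪ Fin n) := ⟨Fin.castLEEmb hn⟩
  have hpos : 0 < (Fintype.card (Fin 4 ↪ Fin n) : ℝ) := by exact_mod_cast Fintype.card_pos
  unfold walkMatrix
  have h1 : (Fintype.card (Draw n) : ℝ) = 2 * (Fintype.card (Fin 4 ↪ Fin n) : ℝ) := by
    rw [Fintype.card_prod, Fintype.card_bool]
    push_cast
    rfl
  have h2 : Fintype.card (Fin 4 ↪ Fin n) ≤
      (univ.filter (fun c : Draw n => stepR G c = G)).card := by
    rw [← Finset.card_univ]
    refine Finset.card_le_card_of_injOn (fun q => (true, q)) ?_ ?_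
    · intro q _
      rw [Finset.mem_coe, mem_filter]
      exact ⟨mem_univ _, Subtype.ext rfl⟩
    · intro q _ q' _ h
      exact (Prod.ext_iff.1 h).2
  have h3 : (Fintype.card (Fin 4 ↪ Fin n) : ℝ) ≤
      ((univ.filter (fun c : Draw n => stepR G c = G)).card : ℝ) := by exact_mod_cast h2
  rw [h1, le_div_iff₀ (by positivity)]
  linarith

open Classical in
theorem walk_switch {n : ℕ} (hn : 4 ≤ n) {d : Fin n → ℕ} (G G' : Realization n d)
    (h : SwitchAdj (es G.1) (es G'.1)) : 1 / (2 * (n : ℝ) ^ 4) ≤ walkMatrix stepR G G' := by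
  have hne : Nonempty (Fin 4 ↪ Fin n) := ⟨Fin.castLEEmb hn⟩
  obtain ⟨a, b, c, e, hab, hac, hae, hbc, hbe, hce, h1, h2, h3, h4, h5⟩ := h
  have hinj : Function.Injective ![a, b, c, e] := by
    intro i j hij
    fin_cases i <;> fin_cases j <;> simp_all
  set q : Fin 4 ↪ Fin n := ⟨![a, b, c, e], hinj⟩ with hq
  have hstep : stepR G (false, q) = G' := by
    apply Subtype.ext
    change switchAt G.1 q = G'.1
    rw [switchAt_eq]
    change switchStep G.1 {s(a, b), s(c, e)} {s(a, c), s(b, e)} = G'.1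
    have hcond : (∀ p ∈ ({s(a, b), s(c, e)} : Finset (Sym2 (Fin n))), p ∈ G.1.edgeSet) ∧
        (∀ p ∈ ({s(a, c), s(b, e)} : Finset (Sym2 (Fin n))), p ∉ G.1.edgeSet) := by
      constructor
      · intro p hp
        rw [Finset.mem_insert, Finset.mem_singleton] at hp
        rcases hp with rfl | rfl
        · exact mem_es.mp h1
        · exact mem_es.mp h2
      · intro p hp hmem
        rw [Finset.mem_insert, Finset.mem_singleton] at hp
        rcases hp with rfl | rfl
        · exact h3 (mem_es.mpr hmem)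
        · exact h4 (mem_es.mpr hmem)
    rw [switchStep_of hcond]
    have e2 : (G.1.edgeSet \ (({s(a, b), s(c, e)} : Finset (Sym2 (Fin n))) :
        Set (Sym2 (Fin n)))) ∪ (({s(a, c), s(b, e)} : Finset (Sym2 (Fin n))) :
        Set (Sym2 (Fin n))) = G'.1.edgeSet := by
      rw [← coe_es G'.1, h5, ← coe_es G.1]
      push_cast
      rfl
    rw [e2, SimpleGraph.fromEdgeSet_edgeSet]
  have h6 : 1 ≤ (univ.filter (fun c : Draw n => stepR G c = G')).card :=
    Finset.card_pos.2 ⟨(false, q), mem_filter.2 ⟨mem_univ _, hstep⟩⟩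
  have h7 : (1 : ℝ) ≤ ((univ.filter (fun c : Draw n => stepR G c = G')).card : ℝ) := by
    exact_mod_cast h6
  have h8 : Fintype.card (Draw n) ≤ 2 * n ^ 4 := by
    rw [Fintype.card_prod, Fintype.card_bool, Fintype.card_embedding_eq, Fintype.card_fin,
      Fintype.card_fin]
    exact Nat.mul_le_mul_left 2 (Nat.descFactorial_le_pow n 4)
  have h9 : (Fintype.card (Draw n) : ℝ) ≤ 2 * (n : ℝ) ^ 4 := by exact_mod_cast h8
  have h10 : 0 < (Fintype.card (Draw n) : ℝ) := by exact_mod_cast Fintype.card_pos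
  unfold walkMatrix
  calc 1 / (2 * (n : ℝ) ^ 4) ≤ 1 / (Fintype.card (Draw n) : ℝ) :=
        one_div_le_one_div_of_le h10 h9
    _ ≤ _ := div_le_div_of_nonneg_right h7 h10.le

open Classical in
theorem prob_eq {n : ℕ} (hn : 4 ≤ n) {d : Fin n → ℕ} (t : ℕ) (G H : Realization n d) :
    prob t G.1 H.1 = (walkMatrix stepR ^ t) G H := by
  have hne : Nonempty (Fin 4 ↪ Fin n) := ⟨Fin.castLEEmb hn⟩
  rw [walkMatrix_pow stepR t G H]
  unfold prob
  have h1 : (univ.filter (fun ω : Fin t → Draw n => run G.1 ω = H.1)) =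
      (univ.filter (fun ω : Fin t → Draw n => (List.ofFn ω).foldl stepR G = H)) := by
    ext ω
    rw [mem_filter, mem_filter]
    refine and_congr_right fun _ => ?_
    unfold run
    rw [← foldl_stepR]
    exact ⟨fun h => Subtype.ext h, fun h => congrArg Subtype.val h⟩
  rw [h1]

open Classical in
theorem sum_graphsWith {n : ℕ} {d : Fin n → ℕ} (g : SimpleGraph (Fin n) → ℝ) :
    ∑ H ∈ graphsWith n d, g H = ∑ H : Realization n d, g H.1 := by
  symm
  refine Finset.sum_bij (fun G _ => G.1) ?_ ?_ ?_ ?_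
  · intro G _
    exact mem_filter.2 ⟨mem_univ _, G.2⟩
  · intro G _ G' _ h
    exact Subtype.ext h
  · intro A hA
    exact ⟨⟨A, (mem_filter.1 hA).2⟩, Finset.mem_univ _, rfl⟩
  · intro G _
    rfl

open Classical in
theorem card_graphsWith {n : ℕ} {d : Fin n → ℕ} :
    (graphsWith n d).card = Fintype.card (Realization n d) := by
  have h := sum_graphsWith (d := d) (fun _ => (1 : ℝ))
  simp only [Finset.sum_const, nsmul_eq_mul, mul_one, Finset.card_univ] at h
  exact_mod_cast h

/-- There are natural numbers `C`, `k` such that for all `n ≥ 4`, every vector `d`, every graph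
`G ∈ Ω_d` and all `t ≥ C n ^ k`, the total variation distance between the distribution of the
switch chain after `t` steps from `G` and the uniform distribution on `Ω_d` is at most `1/4`. -/
theorem result : ∃ C k : ℕ, ∀ n : ℕ, 4 ≤ n → ∀ d : Fin n → ℕ, ∀ G ∈ graphsWith n d,
    ∀ t : ℕ, C * n ^ k ≤ t →
      (1 / 2 : ℝ) * ∑ H ∈ graphsWith n d,
        |prob t G H - 1 / ((graphsWith n d).card : ℝ)| ≤ 1 / 4 := by
  classical
  obtain ⟨C, k, h⟩ := mixing_of_switches
  refine ⟨C, k, fun n hn d G hG t ht => ?_⟩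
  have hne : Nonempty (Fin 4 ↪ Fin n) := ⟨Fin.castLEEmb hn⟩
  set G₀ : Realization n d := ⟨G, (mem_filter.1 hG).2⟩ with hG₀
  have h1 := h n hn d (walkMatrix stepR) walk_symm (walkMatrix_nonneg stepR)
    (walkMatrix_row stepR) (walk_lazy hn) (walk_switch hn) G₀ t ht
  rw [sum_graphsWith (fun H => |prob t G H - 1 / ((graphsWith n d).card : ℝ)|), card_graphsWith]
  refine le_trans (le_of_eq ?_) h1
  congr 1
  refine Finset.sum_congr rfl fun H _ => ?_
  rw [← prob_eq hn t G₀ H]

end Vale.Agent.Results.P335.RandomDraws
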